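import Vale.Agent.P165.Defs

set_option autoImplicit false

namespace Vale.Agent.P165

theorem cnt : S_CNT := by
  intro V G _ hG
  obtain ⟨o⟩ := hG.nonempty
  let B : ℕ → Set V := fun n => Nat.rec {o} (fun _ S => ⋃ x ∈ S, G.neighborSet x) n
  have hB : ∀ n, (B n).Countable := by
    intro n
    induction n with
    | zero => exact Set.countable_singleton o
    | succ n ih => exact ih.biUnion fun x _ => (Set.toFinite (G.neighborSet x)).countable
  have hw : ∀ (x y : V) (w : G.Walk x y) (n : ℕ), x ∈ B n → y ∈ ⋃ m, B m := by
    intro x y w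
    induction w with
    | nil => intro n hx; exact Set.mem_iUnion.2 ⟨n, hx⟩
    | cons h _ ih => intro n hx; exact ih (n + 1) (Set.mem_biUnion hx h)
  rw [← Set.countable_univ_iff]
  refine (Set.countable_iUnion hB).mono fun y _ => ?_
  obtain ⟨w⟩ := hG.preconnected o y
  exact hw o y w 0 rfl

end Vale.Agent.P165
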