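import Vale.Agent.P165.Defs

set_option autoImplicit false

namespace Vale.Agent.P165.FreeX

open MeasureTheory Filter Set Vale.Agent.P165
open scoped ENNReal

lemma map_reindex {ι κ : Type} (μ : κ → Measure Bool) [∀ j, IsProbabilityMeasure (μ j)]
    (f : ι → κ) (hf : Function.Injective f) :
    (Measure.infinitePi μ).map (fun ω i => ω (f i)) = Measure.infinitePi (fun i => μ (f i)) := by
  apply Measure.eq_infinitePi
  intro s t ht
  rw [Measure.map_apply (by fun_prop) (MeasurableSet.pi s.countable_toSet (fun i _ => ht i))]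
  have h1 : (fun (ω : κ → Bool) i => ω (f i)) ⁻¹' (Set.pi (s : Set ι) t) =
      Set.pi (s.map ⟨f, hf⟩ : Finset κ) (Function.extend f t (fun _ => univ)) := by
    ext ω
    simp [hf.extend_apply]
  rw [h1, Measure.infinitePi_pi, Finset.prod_map]
  · refine Finset.prod_congr rfl fun i _ => ?_
    show μ (f i) (Function.extend f t (fun _ => univ) (f i)) = _
    rw [hf.extend_apply]
  · intro j hj
    rw [Finset.mem_map] at hj
    obtain ⟨i, -, rfl⟩ := hj
    show MeasurableSet (Function.extend f t (fun _ => univ) (f i))
    rw [hf.extend_apply]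
    exact ht i

/-- restriction to the pairs -/
def r {V : Type} (ω : Om V) : Sym2 V → Bool := fun e => ω (Sum.inl e)

lemma meas_r {V : Type} : Measurable (r (V := V)) := by
  unfold r
  fun_prop

lemma map_r {V : Type} (p h : unitInterval) :
    (PP V p h).map r = Measure.infinitePi (fun _ : Sym2 V => bern p) :=
  map_reindex (fun j => bern (prm p h j)) Sum.inl Sum.inl_injective

lemma le_comap {V : Type} : Fs (V := V) (Sum.inl '' (univ : Set (Sym2 V))) ≤
    MeasurableSpace.comap r MeasurableSpace.pi := by
  unfold Fs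
  refine iSup₂_le fun j hj => ?_
  obtain ⟨e, -, rfl⟩ := hj
  have h1 : (fun ω : Om V => ω (Sum.inl e)) = (fun η : Sym2 V → Bool => η e) ∘ r := rfl
  rw [h1, ← MeasurableSpace.comap_comp]
  exact MeasurableSpace.comap_mono (measurable_pi_apply e).comap_le

end Vale.Agent.P165.FreeX

namespace Vale.Agent.P165

open MeasureTheory Filter Set FreeX

theorem free : S_FREE := by
  intro V _ p h h' A hA
  obtain ⟨B, hB, rfl⟩ := le_comap A hA
  rw [← Measure.map_apply meas_r hB, ← Measure.map_apply meas_r hB, map_r, map_r]

end Vale.Agent.P165
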