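import Vale.Agent.P165.Defs

/-!
# P165: independence
-/

set_option autoImplicit false

namespace Vale.Agent.P165
namespace IndX

open MeasureTheory Filter Set ProbabilityTheory
open scoped ENNReal

variable {V : Type}

lemma iind (p h : unitInterval) :
    iIndep (fun j : J V => MeasurableSpace.comap (fun ω : Om V => ω j) ⊤) (PP V p h) := by
  have h1 := iIndepFun_infinitePi (P := fun j : J V => bern (prm p h j))
    (X := fun (_ : J V) (b : Bool) => b) (fun _ => measurable_id)
  exact h1

lemma Fs_indep (p h : unitInterval) (S T : Set (J V)) (hST : Disjoint S T) :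
    Indep (Fs S) (Fs T) (PP V p h) := by
  refine indep_iSup_of_disjoint (fun j => ?_) (iind p h) hST
  exact (measurable_pi_apply j).comap_le

lemma bern_true (q : unitInterval) : bern q {true} = ENNReal.ofReal q := by
  simp [bern]

lemma Fs_set (S : Set (J V)) (j : J V) (hj : j ∈ S) :
    MeasurableSet[Fs S] {ω : Om V | ω j = true} := by
  have h1 : MeasurableSpace.comap (fun ω : Om V => ω j) ⊤ ≤ Fs S :=
    le_iSup₂_of_le (f := fun (j : J V) (_ : j ∈ S) =>
      MeasurableSpace.comap (fun ω : Om V => ω j) ⊤) j hj le_rfl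
  exact h1 _ ⟨{true}, trivial, rfl⟩

lemma prob_finset (p h : unitInterval) (E : Finset (J V)) :
    PP V p h {ω | ∀ j ∈ E, ω j = true} = ∏ j ∈ E, ENNReal.ofReal (prm p h j) := by
  have e : {ω : Om V | ∀ j ∈ E, ω j = true} = Set.pi (E : Set (J V)) (fun _ => {true}) := by
    ext ω
    constructor
    · intro hω j hj
      exact hω j hj
    · intro hω j hj
      exact hω j hj
  rw [e, PP, Measure.infinitePi_pi]
  · exact Finset.prod_congr rfl fun j _ => bern_true _
  · intro j _
    exact MeasurableSet.singleton _

end IndX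

open IndX in
/-- IND -/
theorem ind : S_IND := by
  classical
  intro V _ p h
  refine ⟨?_, ?_, ?_⟩
  · intro S T A B hST hA hB
    exact (ProbabilityTheory.Indep_iff _ _ _).mp (Fs_indep p h S T hST) A B hA hB
  · intro E
    constructor
    · have e : {ω : Om V | ∀ e ∈ E, ω (Sum.inl e) = true} =
          ⋂ e ∈ E, {ω : Om V | ω (Sum.inl e) = true} := by
        ext ω
        simp
      rw [e]
      refine Finset.measurableSet_biInter E fun e he => ?_
      exact Fs_set _ _ ⟨e, he, rfl⟩
    · have h1 := prob_finset p h (E.map ⟨Sum.inl, Sum.inl_injective⟩ : Finset (J V))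
      have e : {ω : Om V | ∀ e ∈ E, ω (Sum.inl e) = true} =
          {ω : Om V | ∀ j ∈ (E.map ⟨Sum.inl, Sum.inl_injective⟩ : Finset (J V)), ω j = true} := by
        ext ω
        simp
      rw [e, h1, Finset.prod_map]
      simp [prm]
  · intro v
    have h1 := prob_finset p h ({Sum.inr v} : Finset (J V))
    have e : {ω : Om V | ω (Sum.inr v) = true} =
          {ω : Om V | ∀ j ∈ ({Sum.inr v} : Finset (J V)), ω j = true} := by
      ext ω
      simp
    rw [e, h1, Finset.prod_singleton]
    rfl

end Vale.Agent.P165
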