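import Vale.Agent.P165.Defs

set_option autoImplicit false

namespace Vale.Agent.P165.InvX

open MeasureTheory Filter Set Vale.Agent.P165
open scoped ENNReal

variable {V : Type}

/-- the equivalence of coordinates induced by a bijection of the vertices -/
def eS (f : V ≃ V) : Sym2 V ≃ Sym2 V where
  toFun := Sym2.map f
  invFun := Sym2.map f.symm
  left_inv := by
    intro e
    rw [Sym2.map_map]
    simp
  right_inv := by
    intro e
    rw [Sym2.map_map]
    simp

/-- the equivalence of coordinates induced by a bijection of the vertices -/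
def eJ (f : V ≃ V) : J V ≃ J V := Equiv.sumCongr (eS f) f

lemma eJ_inl (f : V ≃ V) (x y : V) : eJ f (Sum.inl s(x, y)) = Sum.inl s(f x, f y) := rfl

lemma eJ_inr (f : V ≃ V) (x : V) : eJ f (Sum.inr x) = Sum.inr (f x) := rfl

lemma prm_eJ (p h : unitInterval) (f : V ≃ V) (j : J V) : prm p h (eJ f j) = prm p h j := by
  cases j <;> rfl

/-- the action on configurations -/
def T (f : V ≃ V) : Om V ≃ᵐ Om V := MeasurableEquiv.piCongrLeft (fun _ => Bool) (eJ f)

lemma T_apply (f : V ≃ V) (ω : Om V) (j : J V) : T f ω (eJ f j) = ω j := by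
  unfold T
  rw [MeasurableEquiv.coe_piCongrLeft]
  exact Equiv.piCongrLeft_apply_apply (P := fun _ => Bool) (eJ f) ω j

lemma map_T (p h : unitInterval) (f : V ≃ V) : (PP V p h).map (T f) = PP V p h := by
  have := Measure.infinitePi_map_piCongrLeft (fun j : J V => bern (prm p h j)) (eJ f)
  simp_rw [prm_eJ] at this
  exact this

lemma PP_T (p h : unitInterval) (f : V ≃ V) (A : Set (Om V)) :
    PP V p h A = PP V p h {ω | T f ω ∈ A} := by
  conv_lhs => rw [← map_T p h f, MeasurableEquiv.map_apply]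
  rfl

/-- isomorphism of the open subgraphs -/
def isoH (G : SimpleGraph V) (φ : G ≃g G) (ω : Om V) :
    H G ω ∅ ≃g H G (T φ.toEquiv ω) ∅ where
  toEquiv := φ.toEquiv
  map_rel_iff' := by
    intro a b
    have h1 : T φ.toEquiv ω (Sum.inl s(φ.toEquiv a, φ.toEquiv b)) = ω (Sum.inl s(a, b)) := by
      rw [← eJ_inl]
      exact T_apply _ _ _
    show (G.Adj (φ.toEquiv a) (φ.toEquiv b) ∧ T φ.toEquiv ω (Sum.inl s(φ.toEquiv a, φ.toEquiv b)) = true ∧
      s(φ.toEquiv a, φ.toEquiv b) ∉ (∅ : Set (Sym2 V))) ↔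
      (G.Adj a b ∧ ω (Sum.inl s(a, b)) = true ∧ s(a, b) ∉ (∅ : Set (Sym2 V)))
    rw [h1]
    have h2 : G.Adj (φ.toEquiv a) (φ.toEquiv b) ↔ G.Adj a b := φ.map_adj_iff
    rw [h2]
    simp

lemma reach_iff (G : SimpleGraph V) (φ : G ≃g G) (ω : Om V) (x y : V) :
    (H G (T φ.toEquiv ω) ∅).Reachable (φ x) (φ y) ↔ (H G ω ∅).Reachable x y :=
  (isoH G φ ω).reachable_iff

end Vale.Agent.P165.InvX

namespace Vale.Agent.P165

open MeasureTheory Filter Set InvX

theorem inv : S_INV := by
  intro V _ G p h φ x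
  constructor
  · rw [PP_T p h φ.toEquiv]
    congr 1
    ext ω
    simp only [mem_ofPred_eq, Gr]
    constructor
    · rintro ⟨v, hv, hg⟩
      refine ⟨φ.symm v, ?_, ?_⟩
      · rw [← reach_iff G φ ω, RelIso.apply_symm_apply]
        exact hv
      · rw [← T_apply φ.toEquiv ω, eJ_inr]
        have : φ.toEquiv (φ.symm v) = v := RelIso.apply_symm_apply φ v
        rw [this]
        exact hg
    · rintro ⟨v, hv, hg⟩
      refine ⟨φ v, (reach_iff G φ ω x v).mpr hv, ?_⟩
      rw [← T_apply φ.toEquiv ω, eJ_inr] at hg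
      exact hg
  · rw [PP_T p h φ.toEquiv]
    congr 1
    ext ω
    simp only [mem_ofPred_eq]
    have : cluster (H G (T φ.toEquiv ω) ∅) (φ x) = φ '' cluster (H G ω ∅) x := by
      ext y
      simp only [cluster, mem_ofPred_eq, mem_image]
      constructor
      · intro hy
        refine ⟨φ.symm y, ?_, RelIso.apply_symm_apply φ y⟩
        rw [← reach_iff G φ ω, RelIso.apply_symm_apply]
        exact hy
      · rintro ⟨z, hz, rfl⟩
        exact (reach_iff G φ ω x z).mpr hz
    rw [this]
    exact Set.infinite_image_iff φ.injective.injOn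

end Vale.Agent.P165
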