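import Vale.Agent.P165.Defs

/-!
# P165: measurability of connection events
-/

set_option autoImplicit false

namespace Vale.Agent.P165
namespace MeasX

open MeasureTheory Filter Set
open scoped ENNReal

variable {V : Type}

lemma Fs_set (S : Set (J V)) (j : J V) (hj : j ∈ S) :
    MeasurableSet[Fs S] {ω : Om V | ω j = true} := by
  have h1 : MeasurableSpace.comap (fun ω : Om V => ω j) ⊤ ≤ Fs S :=
    le_iSup₂_of_le (f := fun (j : J V) (_ : j ∈ S) =>
      MeasurableSpace.comap (fun ω : Om V => ω j) ⊤) j hj le_rfl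
  exact h1 _ ⟨{true}, trivial, rfl⟩

lemma Fs_le (S : Set (J V)) : Fs S ≤ MeasurableSpace.pi := by
  refine iSup₂_le fun j _ => ?_
  exact (measurable_pi_apply j).comap_le

lemma Fs_mono (S T : Set (J V)) (h : S ⊆ T) : Fs S ≤ Fs T :=
  biSup_mono fun _ hj => h hj

/-- adjacency event -/
def Ad (G : SimpleGraph V) (X : Set (Sym2 V)) (x y : V) : Set (Om V) :=
  {ω | (H G ω X).Adj x y}

lemma Ad_meas (G : SimpleGraph V) (X : Set (Sym2 V)) (x y : V) :
    MeasurableSet[Fs (Sum.inl '' Xᶜ)] (Ad G X x y) := by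
  by_cases h : G.Adj x y ∧ s(x, y) ∉ X
  · have e : Ad G X x y = {ω : Om V | ω (Sum.inl s(x, y)) = true} := by
      ext ω
      constructor
      · intro hω
        exact hω.2.1
      · intro hω
        exact ⟨h.1, hω, h.2⟩
    rw [e]
    exact Fs_set _ _ ⟨_, h.2, rfl⟩
  · have e : Ad G X x y = ∅ := by
      ext ω
      constructor
      · intro hω
        exact h ⟨hω.1, hω.2.2⟩
      · intro hω
        exact hω.elim
    rw [e]
    exact @MeasurableSet.empty _ (Fs (Sum.inl '' Xᶜ))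

/-- connection in `n` steps -/
def Rn (G : SimpleGraph V) (X : Set (Sym2 V)) : ℕ → V → V → Set (Om V)
  | 0, x, y => {_ω | x = y}
  | n + 1, x, y => ⋃ z : V, Ad G X x z ∩ Rn G X n z y

lemma Rn_meas [Countable V] (G : SimpleGraph V) (X : Set (Sym2 V)) (n : ℕ) (x y : V) :
    MeasurableSet[Fs (Sum.inl '' Xᶜ)] (Rn G X n x y) := by
  induction n generalizing x with
  | zero => exact @MeasurableSet.const _ (Fs (Sum.inl '' Xᶜ)) _
  | succ n ih =>
      refine MeasurableSet.iUnion fun z => ?_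
      exact MeasurableSet.inter (Ad_meas G X x z) (ih z)

lemma mem_Rn (G : SimpleGraph V) (X : Set (Sym2 V)) (ω : Om V) (n : ℕ) (x y : V) :
    ω ∈ Rn G X n x y ↔ ∃ w : (H G ω X).Walk x y, w.length = n := by
  induction n generalizing x with
  | zero =>
      constructor
      · intro h
        have h : x = y := h
        subst h
        exact ⟨SimpleGraph.Walk.nil, rfl⟩
      · rintro ⟨w, hw⟩
        exact SimpleGraph.Walk.eq_of_length_eq_zero hw
  | succ n ih =>
      constructor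
      · intro h
        obtain ⟨z, h1, h2⟩ := Set.mem_iUnion.mp h
        obtain ⟨w, hw⟩ := (ih z).mp h2
        have h1' : (H G ω X).Adj x z := h1
        refine ⟨SimpleGraph.Walk.cons h1' w, ?_⟩
        rw [SimpleGraph.Walk.length_cons, hw]
      · rintro ⟨w, hw⟩
        cases w with
        | nil => simp at hw
        | cons hadj w' =>
            refine Set.mem_iUnion.mpr ⟨_, hadj, (ih _).mpr ⟨w', ?_⟩⟩
            simpa using hw

lemma Con_eq (G : SimpleGraph V) (X : Set (Sym2 V)) (x y : V) :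
    Con G X x y = ⋃ n, Rn G X n x y := by
  ext ω
  constructor
  · rintro ⟨w⟩
    exact Set.mem_iUnion.mpr ⟨w.length, (mem_Rn G X ω _ x y).mpr ⟨w, rfl⟩⟩
  · intro h
    obtain ⟨n, hn⟩ := Set.mem_iUnion.mp h
    obtain ⟨w, -⟩ := (mem_Rn G X ω _ x y).mp hn
    exact ⟨w⟩

lemma Con_meas [Countable V] (G : SimpleGraph V) (X : Set (Sym2 V)) (x y : V) :
    MeasurableSet[Fs (Sum.inl '' Xᶜ)] (Con G X x y) := by
  rw [Con_eq]
  exact MeasurableSet.iUnion fun n => Rn_meas G X n x y

lemma Con_empty (G : SimpleGraph V) (X : Set (Sym2 V)) (Z : Set V) (x v : V)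
    (hX : tch Z ⊆ X) (hx : x ∉ Z) (hv : v ∈ Z) : Con G X x v = ∅ := by
  ext ω
  constructor
  · rintro ⟨w⟩
    have w' := w.reverse
    cases w' with
    | nil => exact (hx hv).elim
    | cons hadj _ =>
        exact (hadj.2.2 (hX ⟨v, hv, Sym2.mem_mk_left _ _⟩)).elim
  · intro h
    exact h.elim

lemma Gr_meas [Countable V] (G : SimpleGraph V) (X : Set (Sym2 V)) (Z : Set V) (x : V)
    (hX : tch Z ⊆ X) (hx : x ∉ Z) :
    MeasurableSet[Fs (Sum.inl '' Xᶜ ∪ Sum.inr '' Zᶜ)] (Gr G X x) := by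
  have e : Gr G X x = ⋃ v : V, Con G X x v ∩ {ω : Om V | ω (Sum.inr v) = true} := by
    ext ω
    constructor
    · rintro ⟨v, h1, h2⟩
      exact Set.mem_iUnion.mpr ⟨v, h1, h2⟩
    · intro h
      obtain ⟨v, h1, h2⟩ := Set.mem_iUnion.mp h
      exact ⟨v, h1, h2⟩
  rw [e]
  refine MeasurableSet.iUnion fun v => ?_
  by_cases hv : v ∈ Z
  · rw [Con_empty G X Z x v hX hx hv, Set.empty_inter]
    exact @MeasurableSet.empty _ (Fs _)
  · refine MeasurableSet.inter ?_ ?_
    · exact Fs_mono _ _ Set.subset_union_left _ (Con_meas G X x v)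
    · exact Fs_set _ _ (Or.inr ⟨v, hv, rfl⟩)

end MeasX

open MeasX in
/-- MEAS -/
theorem meas : S_MEAS := by
  intro V _ G
  exact ⟨fun X x y => Con_meas G X x y, fun X Z x hX hx => Gr_meas G X Z x hX hx,
    fun S => Fs_le S, fun S T h => Fs_mono S T h⟩

end Vale.Agent.P165
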