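import Vale.Agent.P165.Bonf
import Vale.Agent.P165.Chee
import Vale.Agent.P165.Cnt
import Vale.Agent.P165.Far
import Vale.Agent.P165.Final
import Vale.Agent.P165.Free
import Vale.Agent.P165.Ind
import Vale.Agent.P165.Inv
import Vale.Agent.P165.Lim
import Vale.Agent.P165.Link
import Vale.Agent.P165.MARKOV
import Vale.Agent.P165.Main
import Vale.Agent.P165.Meas
import Vale.Agent.P165.Measi
import Vale.Agent.P165.Num
import Vale.Agent.P165.One
import Vale.Agent.P165.PAIR
import Vale.Agent.P165.PC
import Vale.Agent.P165.PU
import Vale.Agent.P165.Path
import Vale.Agent.P165.Spec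
import Vale.Agent.P165.Tau

/-!
# P165: the modules put together
-/

set_option autoImplicit false

namespace Vale.Agent.P165

theorem mainAll : S_MAIN := main meas ind inv (path meas ind) (markov meas ind) bonf

theorem pcAll : S_PC := pc' measi link ind (lim meas ind free) mainAll

theorem puAll : S_PU := pu' inv measi link (far (tau ind)) pair

theorem finalAll : S_FINAL := final num spec cnt pcAll puAll one

theorem final2All : S_FINAL2 := final2 chee finalAll

end Vale.Agent.P165
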