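import Vale.Agent.P165.Defs2

/-!
# P165, module POWA: the Cartesian power of a transitive graph
-/

set_option autoImplicit false

namespace Vale.Agent.P165

namespace POWA

variable {V : Type} {G : SimpleGraph V} {k : ℕ}

open Function

lemma adj_update (f : Fin k → V) (i : Fin k) {y : V} (h : G.Adj (f i) y) :
    (cpow G k).Adj f (update f i y) := by
  refine ⟨i, ?_, fun j hj => ?_⟩
  · rw [update_self]; exact h
  · rw [update_of_ne hj]

lemma reach_update (f : Fin k → V) (i : Fin k) {y : V} (h : G.Reachable (f i) y) :
    (cpow G k).Reachable f (update f i y) := by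
  obtain ⟨w⟩ := h
  have key : ∀ (x z : V), G.Walk x z → ∀ f : Fin k → V, f i = x →
      (cpow G k).Reachable f (update f i z) := by
    intro x z w
    induction w with
    | nil =>
      intro f hf
      rw [← hf, update_eq_self]
    | @cons a b c hab w ih =>
      intro f hf
      have h1 : (cpow G k).Adj f (update f i b) := adj_update f i (by rw [hf]; exact hab)
      have h2 := ih (update f i b) (update_self i b f)
      rw [update_idem] at h2
      exact h1.reachable.trans h2
  exact key _ _ w f rfl

lemma connected (hG : G.Connected) : (cpow G k).Connected := by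
  have : Nonempty V := hG.nonempty
  refine { preconnected := ?_, nonempty := inferInstance }
  intro f g
  have key : ∀ s : Finset (Fin k), (cpow G k).Reachable f (fun j => if j ∈ s then g j else f j) := by
    intro s
    induction s using Finset.induction_on with
    | empty => simp
    | insert a s ha ih =>
      refine ih.trans ?_
      have h1 : (fun j => if j ∈ insert a s then g j else f j)
          = update (fun j => if j ∈ s then g j else f j) a (g a) := by
        funext j
        by_cases hj : j = a
        · subst hj
          rw [update_self]
          simp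
        · rw [update_of_ne hj]
          simp [hj]
      rw [h1]
      exact reach_update _ _ (hG.preconnected _ _)
  have := key Finset.univ
  simpa using this

lemma transitive (hG : Transitive G) : Transitive (cpow G k) := by
  intro f g
  choose φ hφ using fun i => hG (f i) (g i)
  refine ⟨⟨Equiv.piCongrRight fun i => (φ i).toEquiv, ?_⟩, ?_⟩
  · intro a b
    constructor
    · rintro ⟨i, h1, h2⟩
      refine ⟨i, (φ i).map_adj_iff.1 h1, fun j hj => ?_⟩
      exact (φ j).injective (h2 j hj)
    · rintro ⟨i, h1, h2⟩
      refine ⟨i, (φ i).map_adj_iff.2 h1, fun j hj => ?_⟩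
      exact congrArg (φ j) (h2 j hj)
  · funext i
    exact hφ i

open Classical in
/-- neighbours in the power -/
noncomputable def nb (G : SimpleGraph V) [G.LocallyFinite] (f : Fin k → V) :
    Finset (Fin k → V) :=
  Finset.univ.biUnion fun i => (G.neighborFinset (f i)).image (update f i)

lemma mem_nb [G.LocallyFinite] (f g : Fin k → V) : g ∈ nb G f ↔ (cpow G k).Adj f g := by
  classical
  unfold nb
  simp only [Finset.mem_biUnion, Finset.mem_univ, true_and, Finset.mem_image,
    SimpleGraph.mem_neighborFinset]
  constructor
  · rintro ⟨i, y, hy, rfl⟩
    exact adj_update f i hy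
  · rintro ⟨i, h1, h2⟩
    refine ⟨i, g i, h1, ?_⟩
    funext j
    by_cases hj : j = i
    · subst hj
      rw [update_self]
    · rw [update_of_ne hj]
      exact h2 j hj

lemma card_nb [G.LocallyFinite] (f : Fin k → V) (d : ℕ) (hd : ∀ x, G.degree x = d) :
    (nb G f).card = k * d := by
  classical
  unfold nb
  rw [Finset.card_biUnion]
  · have h1 : ∀ i ∈ (Finset.univ : Finset (Fin k)),
        ((G.neighborFinset (f i)).image (update f i)).card = d := by
      intro i _
      rw [Finset.card_image_of_injective _ (update_injective f i),
        SimpleGraph.card_neighborFinset_eq_degree, hd]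
    rw [Finset.sum_congr rfl h1]
    simp
  · intro i _ j _ hij
    change Disjoint ((G.neighborFinset (f i)).image (update f i))
      ((G.neighborFinset (f j)).image (update f j))
    rw [Finset.disjoint_left]
    intro g hg1 hg2
    obtain ⟨y, hy, rfl⟩ := Finset.mem_image.1 hg1
    obtain ⟨z, hz, hzy⟩ := Finset.mem_image.1 hg2
    have h1 := congrFun hzy i
    rw [update_of_ne hij, update_self] at h1
    rw [SimpleGraph.mem_neighborFinset] at hy
    rw [← h1] at hy
    exact G.loopless.irrefl _ hy

lemma degree_eq [G.LocallyFinite] (hG : Transitive G) (x y : V) : G.degree x = G.degree y := by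
  obtain ⟨φ, rfl⟩ := hG x y
  exact (φ.degree_eq x).symm

end POWA

open POWA in
theorem powa : S_POWA := by
  intro V G _ hV hc ht k hk
  have : Nonempty (Fin k) := ⟨⟨0, hk⟩⟩
  refine ⟨Function.infinite_of_right, connected hc, transitive ht, ?_⟩
  let inst : (cpow G k).LocallyFinite := fun f =>
    Fintype.ofFinset (nb G f) (fun g => by
      rw [SimpleGraph.mem_neighborSet]; exact mem_nb f g)
  refine ⟨inst, fun o f => ?_⟩
  rw [← SimpleGraph.card_neighborSet_eq_degree]
  have h1 : Fintype.card ((cpow G k).neighborSet f) = (nb G f).card := by
    rw [Fintype.card_ofFinset]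
  rw [h1]
  exact card_nb f _ fun x => degree_eq ht x o

end Vale.Agent.P165
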