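import Vale.Agent.P165.Defs2

/-!
# P165: walks in the Cartesian power
-/

set_option autoImplicit false

namespace Vale.Agent.P165

open Finset

namespace PowbX

variable {V : Type} (G : SimpleGraph V) [G.LocallyFinite] {k : ℕ}

lemma sum_neighbor [(cpow G k).LocallyFinite] (f : Fin k → V) (φ : (Fin k → V) → ℕ) :
    ∑ h ∈ (cpow G k).neighborFinset f, φ h
      = ∑ j : Fin k, ∑ z ∈ G.neighborFinset (f j), φ (Function.update f j z) := by
  classical
  rw [Finset.sum_sigma']
  symm
  refine Finset.sum_bij (fun p _ => Function.update f p.1 p.2) ?_ ?_ ?_ ?_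
  · rintro ⟨j, z⟩ hp
    simp only [mem_sigma, mem_univ, true_and, SimpleGraph.mem_neighborFinset] at hp ⊢
    refine ⟨j, by simpa using hp, fun i hi => ?_⟩
    rw [Function.update_of_ne hi]
  · rintro ⟨j, z⟩ hp ⟨j', z'⟩ hp' heq
    simp only [mem_sigma, mem_univ, true_and, SimpleGraph.mem_neighborFinset] at hp hp' heq
    have hj : j = j' := by
      by_contra hne
      have h1 := congrFun heq j
      rw [Function.update_self, Function.update_of_ne hne] at h1
      rw [h1] at hp
      exact G.loopless.irrefl _ hp
    subst hj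
    have h1 := congrFun heq j
    rw [Function.update_self, Function.update_self] at h1
    rw [h1]
  · intro g hg
    rw [SimpleGraph.mem_neighborFinset] at hg
    obtain ⟨i, h1, h2⟩ := hg
    refine ⟨⟨i, g i⟩, ?_, ?_⟩
    · simp only [mem_sigma, mem_univ, true_and, SimpleGraph.mem_neighborFinset]
      exact h1
    · ext j
      by_cases hj : j = i
      · subst hj
        simp
      · simp only
        rw [Function.update_of_ne hj, h2 j hj]
  · intro p _
    rfl

/-- product of walk counts -/
noncomputable def Pr (c : Fin k → ℕ) (f g : Fin k → V) : ℕ := ∏ j, wk G (c j) (f j) (g j)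

lemma Pr_succ (c : Fin k → ℕ) (f g : Fin k → V) (j : Fin k) :
    ∑ z ∈ G.neighborFinset (f j), Pr G c (Function.update f j z) g
      = Pr G (Function.update c j (c j + 1)) f g := by
  classical
  unfold Pr
  have h1 : ∀ z, ∏ i, wk G (c i) (Function.update f j z i) (g i)
      = wk G (c j) z (g j) * ∏ i ∈ univ.erase j, wk G (c i) (f i) (g i) := by
    intro z
    rw [← Finset.mul_prod_erase univ _ (mem_univ j), Function.update_self]
    congr 1
    refine Finset.prod_congr rfl fun i hi => ?_
    rw [Function.update_of_ne (Finset.ne_of_mem_erase hi)]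
  have h2 : ∏ i, wk G (Function.update c j (c j + 1) i) (f i) (g i)
      = wk G (c j + 1) (f j) (g j) * ∏ i ∈ univ.erase j, wk G (c i) (f i) (g i) := by
    rw [← Finset.mul_prod_erase univ _ (mem_univ j), Function.update_self]
    congr 1
    refine Finset.prod_congr rfl fun i hi => ?_
    rw [Function.update_of_ne (Finset.ne_of_mem_erase hi)]
  rw [h2, Finset.sum_congr rfl fun z _ => h1 z, ← Finset.sum_mul]
  rfl

/-- mixed counts -/
noncomputable def VV [(cpow G k).LocallyFinite] : ℕ → (Fin k → ℕ) → (Fin k → V) → (Fin k → V) → ℕ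
  | 0, c, f, g => Pr G c f g
  | n + 1, c, f, g => ∑ h ∈ (cpow G k).neighborFinset f, VV n c h g

lemma VV_zero [(cpow G k).LocallyFinite] (n : ℕ) (f g : Fin k → V) :
    VV G n 0 f g = wk (cpow G k) n f g := by
  classical
  induction n generalizing f with
  | zero =>
    simp only [VV, wk]
    unfold Pr
    by_cases h : f = g
    · subst h
      rw [if_pos rfl]
      refine Finset.prod_eq_one fun j _ => ?_
      simp [wk]
    · rw [if_neg h]
      have : ∃ j, f j ≠ g j := by
        by_contra hcon
        push Not at hcon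
        exact h (funext hcon)
      obtain ⟨j, hj⟩ := this
      refine Finset.prod_eq_zero (mem_univ j) ?_
      simp only [wk]
      rw [if_neg hj]
  | succ n ih =>
    change ∑ h ∈ (cpow G k).neighborFinset f, VV G n 0 h g
      = ∑ h ∈ (cpow G k).neighborFinset f, wk (cpow G k) n h g
    exact Finset.sum_congr rfl fun h _ => ih h

lemma VV_succ [(cpow G k).LocallyFinite] (n : ℕ) (c : Fin k → ℕ) (f g : Fin k → V) :
    VV G (n + 1) c f g = ∑ j, VV G n (Function.update c j (c j + 1)) f g := by
  induction n generalizing f with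
  | zero =>
    change ∑ h ∈ (cpow G k).neighborFinset f, Pr G c h g
      = ∑ j, Pr G (Function.update c j (c j + 1)) f g
    rw [sum_neighbor]
    exact Finset.sum_congr rfl fun j _ => Pr_succ G c f g j
  | succ n ih =>
    change ∑ h ∈ (cpow G k).neighborFinset f, VV G (n + 1) c h g
      = ∑ j, ∑ h ∈ (cpow G k).neighborFinset f, VV G n (Function.update c j (c j + 1)) h g
    rw [Finset.sum_comm]
    exact Finset.sum_congr rfl fun h _ => ih h

lemma VV_le [(cpow G k).LocallyFinite] (a : ℝ)
    (hw : ∀ n x y, (wk G n x y : ℝ) ≤ a ^ n) (n : ℕ) (c : Fin k → ℕ) (f g : Fin k → V) :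
    (VV G n c f g : ℝ) ≤ (k * a) ^ n * a ^ (∑ j, c j) := by
  induction n generalizing c f with
  | zero =>
    change ((Pr G c f g : ℕ) : ℝ) ≤ _
    unfold Pr
    rw [Nat.cast_prod, pow_zero, one_mul, ← Finset.prod_pow_eq_pow_sum]
    exact Finset.prod_le_prod (fun _ _ => Nat.cast_nonneg _) fun j _ => hw _ _ _
  | succ n ih =>
    rw [VV_succ, Nat.cast_sum]
    have h1 : ∀ j : Fin k, (VV G n (Function.update c j (c j + 1)) f g : ℝ)
        ≤ (k * a) ^ n * a ^ (∑ j, c j + 1) := by
      intro j
      have h2 := ih (Function.update c j (c j + 1)) f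
      have h3 : ∑ i, Function.update c j (c j + 1) i = ∑ i, c i + 1 := by
        rw [Finset.sum_update_of_mem (mem_univ j),
          ← Finset.add_sum_erase univ c (mem_univ j), Finset.sdiff_singleton_eq_erase]
        ring
      rwa [h3] at h2
    refine (Finset.sum_le_sum fun j _ => h1 j).trans (le_of_eq ?_)
    rw [Finset.sum_const, Finset.card_univ, Fintype.card_fin, nsmul_eq_mul]
    ring

end PowbX

theorem powb : S_POWB := by
  intro V G _ a _ hw k _ n f g
  have h1 := PowbX.VV_le G a hw n 0 f g
  rw [PowbX.VV_zero] at h1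
  simpa using h1

end Vale.Agent.P165
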